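import Vale.Agent.P251.F.Height
import Vale.Agent.P251.F.Inv
import Vale.Agent.P241.H891.UBAlg

/-!
# P241, upper bound: the series `[p^k]` of a formal group law

* `multSeries_mul` : `[ab] = [a] ∘ [b]`;
* `exists_decomp` : `[p](α) = v_n z + z² h + ι` with `z = α^(p^n)` and `ι` with coefficients in
  `I_n = (v_0, …, v_{n-1})`;
* `X_pow_dvd_multSeries`, `coeff_multSeries_pow` : if `I_{n+1} = 0` then the series `[p^k]` starts
  with a power of `v_{n+1}` times `x^(p^((n+1)k))`;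
* `coeff_pow_mem`, `isUnit_coeff_pow` : the same modulo a nilpotent ideal.
-/

open PowerSeries Vale.Agent.P251.F Vale.Agent.P217

namespace Vale.Agent.P241.H926

variable {A : Type*} [CommRing A]

/-- `[ab] = [a] ∘ [b]` -/
theorem multSeries_mul (F : FormalGroup A) [F.IsComm] (a b : ℕ) :
    multSeries F (a * b) = subst (multSeries F b) (multSeries F a) := by
  have hX : HasSubst (X : A⟦X⟧) := HasSubst.X'
  let x : F.Point Unit := ⟨X, hX⟩
  have h := congrArg Subtype.val (mul_nsmul' x a b)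
  rw [nsmul_val, nsmul_val, nsmul_val] at h
  change (subst (X : A⟦X⟧) (multSeries F (a * b)) : A⟦X⟧) =
    subst (subst (X : A⟦X⟧) (multSeries F b) : A⟦X⟧) (multSeries F a) at h
  rwa [X_subst, X_subst] at h

theorem hasSubst_of_cc {α : A⟦X⟧} (h : constantCoeff α = 0) : HasSubst α :=
  HasSubst.of_constantCoeff_zero h

/-- leading coefficients of composites -/
theorem lead_subst {f g : A⟦X⟧} {N M : ℕ} (hN : N ≠ 0) (hf : X ^ N ∣ f) (hg : X ^ M ∣ g) :
    X ^ (N * M) ∣ (subst f g : A⟦X⟧) ∧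
      coeff (N * M) (subst f g : A⟦X⟧) = coeff M g * coeff N f ^ M := by
  obtain ⟨g', rfl⟩ := hg
  obtain ⟨f', rfl⟩ := hf
  have h0 : constantCoeff (X ^ N * f' : A⟦X⟧) = 0 := by
    rw [map_mul, map_pow, constantCoeff_X, zero_pow hN, zero_mul]
  have hs : HasSubst (X ^ N * f' : A⟦X⟧) := HasSubst.of_constantCoeff_zero h0
  rw [subst_mul hs, subst_pow hs, subst_X hs, mul_pow, ← pow_mul, mul_assoc]
  refine ⟨dvd_mul_right _ _, ?_⟩
  rw [coeff_X_pow_mul', if_pos le_rfl, coeff_X_pow_mul', if_pos le_rfl, coeff_X_pow_mul',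
    if_pos le_rfl, Nat.sub_self, Nat.sub_self, Nat.sub_self, coeff_zero_eq_constantCoeff_apply,
    coeff_zero_eq_constantCoeff_apply, coeff_zero_eq_constantCoeff_apply, map_mul, map_pow,
    mul_comm]
  congr 1
  exact HT_constantCoeff_subst_of_zero (fun _ => h0) g'

/-- coefficients of a composite in an ideal -/
theorem coeff_subst_mem (I : Ideal A) {α ι : A⟦X⟧} (hα : constantCoeff α = 0)
    (hι : ∀ i, coeff i ι ∈ I) (i : ℕ) : coeff i (subst α ι : A⟦X⟧) ∈ I := by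
  rw [← Ideal.Quotient.eq_zero_iff_mem, ← coeff_map]
  have h0 : ι.map (Ideal.Quotient.mk I) = 0 := by
    ext j
    rw [coeff_map, map_zero, Ideal.Quotient.eq_zero_iff_mem]
    exact hι j
  have h1 : (subst α ι : A⟦X⟧).map (Ideal.Quotient.mk I) =
      subst (α.map (Ideal.Quotient.mk I)) (ι.map (Ideal.Quotient.mk I)) :=
    PowerSeries.map_subst (h := Ideal.Quotient.mk I) (hasSubst_of_cc hα) ι
  refine (congrArg (coeff i) h1).trans ?_
  rw [h0]
  have h2 : HasSubst (α.map (Ideal.Quotient.mk I)) := by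
    apply hasSubst_of_cc
    rw [← coeff_zero_eq_constantCoeff_apply, coeff_map, coeff_zero_eq_constantCoeff_apply, hα,
      map_zero]
  have h3 : (subst (α.map (Ideal.Quotient.mk I)) (0 : (A ⧸ I)⟦X⟧) : (A ⧸ I)⟦X⟧) = 0 :=
    ps_subst_zero h2
  rw [h3, map_zero]

section decomp

variable (p : ℕ) [hp : Fact p.Prime] (F : FormalGroup A) [F.IsComm] (n : ℕ)

/-- the part of `[p]` in degrees divisible by `p^n`, as a series in `x^(p^n)` -/
noncomputable def part : A⟦X⟧ := mk fun j => coeff (p ^ n * j) (multSeries F p)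

theorem coeff_multSeries_sub_part (i : ℕ) :
    coeff i (multSeries F p - subst (X ^ p ^ n : A⟦X⟧) (part p F n)) ∈ IF p F n := by
  have hq : p ^ n ≠ 0 := pow_ne_zero n hp.out.ne_zero
  rw [map_sub, coeff_subst_X_pow hq]
  split_ifs with hd
  · obtain ⟨j, rfl⟩ := hd
    rw [Nat.mul_div_cancel_left _ (Nat.pos_of_ne_zero hq), part, coeff_mk]
    simp
  · rw [sub_zero]
    exact coeff_multSeries_mem p F n i hd

omit hp [F.IsComm] in
theorem exists_part : ∃ h : A⟦X⟧, part p F n = C (vF p F n) * X + X ^ 2 * h := by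
  refine ⟨mk fun j => coeff (j + 2) (part p F n), ?_⟩
  ext i
  rw [map_add, coeff_C_mul, coeff_X, coeff_X_pow_mul']
  rcases i with _ | _ | i
  · rw [part, coeff_mk, mul_zero, coeff_zero_eq_constantCoeff_apply, constantCoeff_multSeries,
      if_neg zero_ne_one, mul_zero, if_neg (by omega), add_zero]
  · rw [part, coeff_mk, zero_add, mul_one, if_pos rfl, mul_one, if_neg (by omega), add_zero]
    rfl
  · rw [if_neg (by omega), mul_zero, zero_add, if_pos (by omega), coeff_mk]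
    rfl

/-- **Decomposition** of `[p](α)`. -/
theorem exists_decomp {α : A⟦X⟧} (hα : constantCoeff α = 0) :
    ∃ h ι : A⟦X⟧, (subst α (multSeries F p) : A⟦X⟧) =
        C (vF p F n) * α ^ p ^ n + (α ^ p ^ n) ^ 2 * h + ι ∧ ∀ i, coeff i ι ∈ IF p F n := by
  have hq : p ^ n ≠ 0 := pow_ne_zero n hp.out.ne_zero
  have hs : HasSubst α := hasSubst_of_cc hα
  obtain ⟨h, hh⟩ := exists_part p F n
  have hz : constantCoeff (α ^ p ^ n) = 0 := by rw [map_pow, hα, zero_pow hq]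
  have hsz : HasSubst (α ^ p ^ n) := hasSubst_of_cc hz
  refine ⟨subst (α ^ p ^ n) h,
    subst α (multSeries F p - subst (X ^ p ^ n : A⟦X⟧) (part p F n)), ?_,
    coeff_subst_mem _ hα (coeff_multSeries_sub_part p F n)⟩
  have e : (subst α (multSeries F p - subst (X ^ p ^ n : A⟦X⟧) (part p F n)) : A⟦X⟧) =
      subst α (multSeries F p) - subst α (subst (X ^ p ^ n : A⟦X⟧) (part p F n) : A⟦X⟧) :=
    subst_sub hs _ _
  have e2 : (subst α (subst (X ^ p ^ n : A⟦X⟧) (part p F n) : A⟦X⟧) : A⟦X⟧) =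
      subst (α ^ p ^ n) (part p F n) := by
    rw [subst_comp_subst_apply (HasSubst.X_pow hq) hs, subst_pow hs, subst_X hs]
  have e3 : (subst (α ^ p ^ n) (part p F n) : A⟦X⟧) =
      C (vF p F n) * α ^ p ^ n + (α ^ p ^ n) ^ 2 * subst (α ^ p ^ n) h := by
    rw [hh, subst_add hsz, subst_mul hsz, subst_mul hsz, subst_pow hsz, subst_X hsz, subst_C]
    rfl
  rw [e, e2, e3]
  ring

end decomp

section lead

variable (p : ℕ) [hp : Fact p.Prime] (F : FormalGroup A) [F.IsComm] (h : ℕ)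

/-- if `v_i = 0` for `i < h` then `x^(p^(hk))` divides `[p^k](x)`, with coefficient a power of
`v_h` -/
theorem lead_multSeries_pow (hv : ∀ i < h, vF p F i = 0) (k : ℕ) :
    X ^ p ^ (h * k) ∣ multSeries F (p ^ k) ∧
      ∃ e : ℕ, coeff (p ^ (h * k)) (multSeries F (p ^ k)) = vF p F h ^ e := by
  have h1 : X ^ p ^ h ∣ multSeries F p := X_pow_dvd_iff.2 fun m hm => coeff_multSeries_lt p F h hv m hm
  induction k with
  | zero =>
    rw [Nat.mul_zero, pow_zero, pow_one]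
    refine ⟨X_dvd_iff.2 (constantCoeff_multSeries F 1), 0, ?_⟩
    rw [coeff_one_multSeries, pow_zero, Nat.cast_one]
  | succ k ih =>
    obtain ⟨h2, e, he⟩ := ih
    have h3 := lead_subst (pow_ne_zero (h * k) hp.out.ne_zero) h2 h1
    rw [← pow_add, show h * k + h = h * (k + 1) by ring, ← multSeries_mul, ← pow_succ'] at h3
    refine ⟨h3.1, 1 + e * p ^ h, ?_⟩
    rw [h3.2, he, pow_add, pow_one, pow_mul]
    rfl

/-- modulo an ideal containing `I_h`: coefficients of `[p^k]` below `p^(hk)` -/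
theorem coeff_pow_mem {J : Ideal A} (hJ : IF p F h ≤ J) (k i : ℕ) (hi : i < p ^ (h * k)) :
    coeff i (multSeries F (p ^ k)) ∈ J := by
  rw [← Ideal.Quotient.eq_zero_iff_mem, ← coeff_map, map_multSeries]
  have := isComm_map (f := Ideal.Quotient.mk J) F
  refine X_pow_dvd_iff.1 (lead_multSeries_pow p (F.map (Ideal.Quotient.mk J)) h
    (fun i hi => ?_) k).1 i hi
  rw [vF_map]
  exact Ideal.Quotient.eq_zero_iff_mem.2 (hJ (vF_mem p F hi))

/-- the leading coefficient of `[p^k]` modulo an ideal containing `I_h` -/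
theorem coeff_pow_sub_mem {J : Ideal A} (hJ : IF p F h ≤ J) (k : ℕ) :
    ∃ e : ℕ, coeff (p ^ (h * k)) (multSeries F (p ^ k)) - vF p F h ^ e ∈ J := by
  have := isComm_map (f := Ideal.Quotient.mk J) F
  obtain ⟨e, he⟩ := (lead_multSeries_pow p (F.map (Ideal.Quotient.mk J)) h
    (fun i hi => by
      rw [vF_map]
      exact Ideal.Quotient.eq_zero_iff_mem.2 (hJ (vF_mem p F hi))) k).2
  refine ⟨e, ?_⟩
  rw [← Ideal.Quotient.eq_zero_iff_mem, map_sub, map_pow, ← vF_map, ← he, ← map_multSeries,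
    coeff_map, sub_self]

theorem isUnit_of_sub_mem {J : Ideal A} {S : ℕ} (hS : J ^ S = ⊥) {a b : A} (hb : IsUnit b)
    (hab : a - b ∈ J) : IsUnit a := by
  have hn : IsNilpotent (a - b) := ⟨S, by
    have := Ideal.pow_mem_pow hab S
    rwa [hS, Ideal.mem_bot] at this⟩
  have := hn.isUnit_add_left_of_commute hb (Commute.all _ _)
  rwa [add_sub_cancel] at this

/-- the leading coefficient of `[p^k]` is a unit if `v_h` is one and `I_h` is nilpotent -/
theorem isUnit_coeff_pow {J : Ideal A} (hJ : IF p F h ≤ J) {S : ℕ} (hS : J ^ S = ⊥)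
    (hu : IsUnit (vF p F h)) (k : ℕ) :
    IsUnit (coeff (p ^ (h * k)) (multSeries F (p ^ k))) := by
  obtain ⟨e, he⟩ := coeff_pow_sub_mem p F h hJ k
  exact isUnit_of_sub_mem hS (hu.pow e) he

/-- powers: coefficients of `α^q` below `q N` -/
theorem coeff_pow_mem' {J : Ideal A} {α : A⟦X⟧} {N : ℕ} (hα : ∀ i < N, coeff i α ∈ J) (q i : ℕ)
    (hi : i < N * q) : coeff i (α ^ q) ∈ J := by
  rw [← Ideal.Quotient.eq_zero_iff_mem, ← coeff_map, map_pow]
  have h1 : X ^ N ∣ α.map (Ideal.Quotient.mk J) := X_pow_dvd_iff.2 fun m hm => by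
    rw [coeff_map]
    exact Ideal.Quotient.eq_zero_iff_mem.2 (hα m hm)
  have h2 := pow_dvd_pow_of_dvd h1 q
  rw [← pow_mul] at h2
  exact X_pow_dvd_iff.1 h2 i hi

theorem coeff_pow_sub_mem' {J : Ideal A} {α : A⟦X⟧} {N : ℕ} (hα : ∀ i < N, coeff i α ∈ J)
    (q : ℕ) : coeff (N * q) (α ^ q) - coeff N α ^ q ∈ J := by
  rw [← Ideal.Quotient.eq_zero_iff_mem, map_sub, map_pow (Ideal.Quotient.mk J), ← coeff_map,
    ← coeff_map, map_pow (PowerSeries.map (Ideal.Quotient.mk J))]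
  have h1 : X ^ N ∣ α.map (Ideal.Quotient.mk J) := X_pow_dvd_iff.2 fun m hm => by
    rw [coeff_map]
    exact Ideal.Quotient.eq_zero_iff_mem.2 (hα m hm)
  obtain ⟨β, hβ⟩ := h1
  rw [hβ, mul_pow, ← pow_mul, coeff_X_pow_mul', if_pos le_rfl, coeff_X_pow_mul', if_pos le_rfl,
    Nat.sub_self, Nat.sub_self, coeff_zero_eq_constantCoeff_apply,
    coeff_zero_eq_constantCoeff_apply, map_pow, sub_self]

end lead

/-! ### Output, in the form of `H891/UBAlg.main` -/

section out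

open Vale.Agent.P241.H891

/-- a series congruent to `X^D θ`, with the given constant coefficient of `θ` -/
theorem exists_theta {J : Ideal A} {P : A⟦X⟧} {D : ℕ} {a : A} (h1 : ∀ i < D, coeff i P ∈ J)
    (h2 : coeff D P - a ∈ J) : ∃ θ : A⟦X⟧, CMod J P (X ^ D * θ) ∧ coeff 0 θ = a := by
  refine ⟨mk fun i => if i = 0 then a else coeff (i + D) P, fun i => ?_, by
    rw [coeff_mk, if_pos rfl]⟩
  rw [coeff_X_pow_mul']
  split_ifs with hi
  · rw [coeff_mk, Nat.sub_add_cancel hi]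
    split_ifs with h0
    · have : i = D := by omega
      subst this
      exact h2
    · rw [sub_self]
      exact J.zero_mem
  · rw [sub_zero]
    exact h1 i (by omega)

variable (p : ℕ) [hp : Fact p.Prime] (G : Law A)

omit hp in
theorem IF_eq_Ih (h : ℕ) : IF p G.toFG h = Ih p h G := by
  unfold IF Ih
  congr 1
  ext x
  constructor
  · rintro ⟨i, hi, rfl⟩
    exact ⟨i, hi, rfl⟩
  · rintro ⟨i, hi, rfl⟩
    exact ⟨i, hi, rfl⟩

omit hp in
theorem Ih_succ_le (n : ℕ) : Ih p (n + 1) G ≤ Ih p n G ⊔ Ideal.span {vv p n G} := by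
  refine Ideal.span_le.2 ?_
  rintro _ ⟨i, hi, rfl⟩
  rcases Nat.lt_succ_iff_lt_or_eq.1 hi with hi | rfl
  · exact Ideal.mem_sup_left (vv_mem_Ih hi G)
  · exact Ideal.mem_sup_right (Ideal.mem_span_singleton_self _)

/-- **The series `[p^(k+1)]` and `[p^k]`**: with `α = [p^k]`, `β = α^(p^n)`, `P = [p^(k+1)]`,
`P = β (v_n + α h)` modulo `I_n`, `P = x^D θ`, `β = x^(D') c` modulo `I_n + (v_n)`, with
`D' < D` and `θ(0)`, `c(0)` powers of `v_{n+1}`. -/
theorem exists_pser (n k : ℕ) : ∃ (h θ c : A⟦X⟧) (b b' : ℕ),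
    CMod (Ih p n G) (multSeries G.toFG (p ^ (k + 1)))
      (multSeries G.toFG (p ^ k) ^ p ^ n * (C (vv p n G) + multSeries G.toFG (p ^ k) * h)) ∧
    CMod (Ih p n G ⊔ Ideal.span {vv p n G}) (multSeries G.toFG (p ^ (k + 1)))
      (X ^ p ^ ((n + 1) * (k + 1)) * θ) ∧ coeff 0 θ = vv p (n + 1) G ^ b ∧
    CMod (Ih p n G ⊔ Ideal.span {vv p n G}) (multSeries G.toFG (p ^ k) ^ p ^ n)
      (X ^ p ^ ((n + 1) * k + n) * c) ∧ coeff 0 c = vv p (n + 1) G ^ b' ∧
    p ^ ((n + 1) * k + n) < p ^ ((n + 1) * (k + 1)) := by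
  have hJ : IF p G.toFG (n + 1) ≤ Ih p n G ⊔ Ideal.span {vv p n G} := by
    rw [IF_eq_Ih]
    exact Ih_succ_le p G n
  set J := Ih p n G ⊔ Ideal.span {vv p n G} with hJdef
  obtain ⟨h, ι, h1, h2⟩ := exists_decomp p G.toFG n (constantCoeff_multSeries G.toFG (p ^ k))
  obtain ⟨b, hb⟩ := coeff_pow_sub_mem p G.toFG (n + 1) hJ (k + 1)
  obtain ⟨b₀, hb₀⟩ := coeff_pow_sub_mem p G.toFG (n + 1) hJ k
  obtain ⟨θ, hθ, hθ0⟩ := exists_theta (coeff_pow_mem p G.toFG (n + 1) hJ (k + 1)) hb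
  have e1 : p ^ ((n + 1) * k) * p ^ n = p ^ ((n + 1) * k + n) := (pow_add _ _ _).symm
  have h3 := coeff_pow_mem' (coeff_pow_mem p G.toFG (n + 1) hJ k) (p ^ n)
  have h4 := coeff_pow_sub_mem' (coeff_pow_mem p G.toFG (n + 1) hJ k) (p ^ n)
  rw [e1] at h3 h4
  have h5 : coeff (p ^ ((n + 1) * k + n)) (multSeries G.toFG (p ^ k) ^ p ^ n) -
      vv p (n + 1) G ^ (b₀ * p ^ n) ∈ J := by
    have h6 : coeff (p ^ ((n + 1) * k)) (multSeries G.toFG (p ^ k)) ^ p ^ n -
        (vF p G.toFG (n + 1) ^ b₀) ^ p ^ n ∈ J :=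
      J.mem_of_dvd (sub_dvd_pow_sub_pow _ _ _) hb₀
    rw [← pow_mul] at h6
    have := J.add_mem h4 h6
    rwa [sub_add_sub_cancel] at this
  obtain ⟨c, hc, hc0⟩ := exists_theta h3 h5
  refine ⟨multSeries G.toFG (p ^ k) ^ (p ^ n - 1) * h, θ, c, b, b₀ * p ^ n, ?_, hθ, hθ0, hc, hc0,
    Nat.pow_lt_pow_right hp.out.one_lt (by nlinarith)⟩
  intro i
  have e2 : multSeries G.toFG (p ^ (k + 1)) - multSeries G.toFG (p ^ k) ^ p ^ n *
      (C (vv p n G) + multSeries G.toFG (p ^ k) * (multSeries G.toFG (p ^ k) ^ (p ^ n - 1) * h)) =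
      ι := by
    rw [pow_succ', multSeries_mul, h1]
    have e3 : multSeries G.toFG (p ^ k) * (multSeries G.toFG (p ^ k) ^ (p ^ n - 1) * h) =
        multSeries G.toFG (p ^ k) ^ p ^ n * h := by
      rw [← mul_assoc, ← pow_succ', Nat.sub_add_cancel (Nat.one_le_pow _ _ hp.out.pos)]
    rw [e3]
    change C (vv p n G) * _ + _ + ι - _ = ι
    ring
  rw [← map_sub, e2, ← IF_eq_Ih]
  exact h2 i

end out

end Vale.Agent.P241.H926
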